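import Vale.Agent.P318.H937.Spec

/-!
# P318: iterated losslessness over the nodes of a view (`SpecLOW`, `SpecLOW2`)
-/

open Finset

namespace Vale.Agent.P318.H22

open Vale.Agent.P318.H937

/-! ### Abstract iteration -/

section Abstract

variable {Sd A : Type*} {M : ℕ}

/-- apply the operators of the nodes of the list `L` outside `R` -/
def iter (T : Fin M → Sd → A → A) (R : Finset (Fin M)) (L : List (Fin M)) (y : Fin M → Sd)
    (x : A) : A :=
  L.foldl (fun x v => if v ∈ R then x else T v (y v) x) x

theorem iter_append (T : Fin M → Sd → A → A) (R : Finset (Fin M)) (L : List (Fin M)) (v : Fin M)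
    (y : Fin M → Sd) (x : A) : iter T R (L ++ [v]) y x =
      if v ∈ R then iter T R L y x else T v (y v) (iter T R L y x) := by
  simp [iter, List.foldl_append]

theorem iter_congr (T : Fin M → Sd → A → A) (R : Finset (Fin M)) (L : List (Fin M))
    (y y' : Fin M → Sd) (h : ∀ v ∈ L, y v = y' v) (x : A) : iter T R L y x = iter T R L y' x := by
  induction L using List.reverseRecOn generalizing x with
  | nil => rfl
  | append_singleton L v ih =>
    rw [iter_append, iter_append, ih (fun w hw => h w (by simp [hw])), h v (by simp)]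

/-- re-randomizing one coordinate -/
theorem sum_update (S : Fin M → Finset Sd) (v : Fin M) (H : (Fin M → Sd) → ℝ) :
    ∑ y ∈ Fintype.piFinset S, ∑ a ∈ S v, H (Function.update y v a) =
      (S v).card * ∑ y ∈ Fintype.piFinset S, H y := by
  have h1 : ∑ y ∈ Fintype.piFinset S, ∑ a ∈ S v, H (Function.update y v a) =
      ∑ p ∈ Fintype.piFinset S ×ˢ S v, H (Function.update p.1 v p.2) := by
    rw [Finset.sum_product]
  have h2 : (S v).card * ∑ y ∈ Fintype.piFinset S, H y =
      ∑ p ∈ Fintype.piFinset S ×ˢ S v, H p.1 := by
    rw [Finset.sum_product, Finset.mul_sum]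
    refine Finset.sum_congr rfl fun y _ => ?_
    show ((S v).card : ℝ) * H y = ∑ _a ∈ S v, H y
    rw [Finset.sum_const, nsmul_eq_mul]
  rw [h1, h2]
  refine Finset.sum_nbij' (fun p => (Function.update p.1 v p.2, p.1 v))
    (fun p => (Function.update p.1 v p.2, p.1 v)) ?_ ?_ ?_ ?_ ?_
  · rintro ⟨y, a⟩ hp
    rw [Finset.mem_product, Fintype.mem_piFinset] at hp ⊢
    refine ⟨fun w => ?_, hp.1 v⟩
    by_cases hw : w = v
    · subst hw; simpa using hp.2
    · simpa [Function.update_of_ne hw] using hp.1 w
  · rintro ⟨y, a⟩ hp
    rw [Finset.mem_product, Fintype.mem_piFinset] at hp ⊢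
    refine ⟨fun w => ?_, hp.1 v⟩
    by_cases hw : w = v
    · subst hw; simpa using hp.2
    · simpa [Function.update_of_ne hw] using hp.1 w
  · rintro ⟨y, a⟩ _
    simp
  · rintro ⟨y, a⟩ _
    simp
  · rintro ⟨y, a⟩ _
    rfl

theorem low_abstract (T : Fin M → Sd → A → A) (size : A → ℕ) (W : ℕ) (Dn : ℕ) (η : ℝ)
    (hη : 0 ≤ η) (hDn : 0 < Dn) (S : Fin M → Finset Sd) (hS : ∀ v, (S v).card = Dn)
    (hle : ∀ v a x, size (T v a x) ≤ size x)
    (hless : ∀ v x, size x ≤ W → ((Dn : ℝ) - η) * size x ≤ ∑ a ∈ S v, (size (T v a x) : ℝ))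
    (R : Finset (Fin M)) (L : List (Fin M)) (hL : L.Nodup) (x : A) (hx : size x ≤ W) :
    (1 - L.length * η / Dn) * (Dn : ℝ) ^ M * size x ≤
      ∑ y ∈ Fintype.piFinset S, (size (iter T R L y x) : ℝ) := by
  have hD : (0 : ℝ) < Dn := by exact_mod_cast hDn
  have hcard : ((Fintype.piFinset S).card : ℝ) = (Dn : ℝ) ^ M := by
    rw [Fintype.card_piFinset]; simp [hS]
  have hsz : ∀ (L : List (Fin M)) y, size (iter T R L y x) ≤ size x := by
    intro L y
    induction L using List.reverseRecOn with
    | nil => exact le_refl _
    | append_singleton L v ih =>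
      rw [iter_append]; split_ifs
      · exact ih
      · exact (hle _ _ _).trans ih
  induction L using List.reverseRecOn with
  | nil =>
    simp only [List.length_nil, Nat.cast_zero, zero_mul, zero_div, sub_zero, one_mul]
    have : ∀ y ∈ Fintype.piFinset S, (size (iter T R [] y x) : ℝ) = size x := fun y _ => rfl
    rw [Finset.sum_congr rfl this, Finset.sum_const, nsmul_eq_mul, hcard]
  | append_singleton L v ih =>
    have hL' := List.nodup_append.1 hL
    have hv : v ∉ L := fun h => hL'.2.2 v h v (by simp) rfl
    have ih := ih hL'.1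
    have hlen : ((L ++ [v]).length : ℝ) = L.length + 1 := by simp
    have hDM : (0 : ℝ) ≤ (Dn : ℝ) ^ M * size x := by positivity
    by_cases hvR : v ∈ R
    · have : ∀ y, iter T R (L ++ [v]) y x = iter T R L y x := by
        intro y; rw [iter_append, if_pos hvR]
      simp only [this]
      refine le_trans ?_ ih
      rw [mul_assoc, mul_assoc]
      refine mul_le_mul_of_nonneg_right ?_ hDM
      rw [hlen]
      have : (L.length : ℝ) * η / Dn ≤ (L.length + 1) * η / Dn := by
        gcongr; linarith
      linarith
    · have hit : ∀ y, iter T R (L ++ [v]) y x = T v (y v) (iter T R L y x) := by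
        intro y; rw [iter_append, if_neg hvR]
      have hupd : ∀ y a, iter T R (L ++ [v]) (Function.update y v a) x =
          T v a (iter T R L y x) := by
        intro y a
        rw [hit, Function.update_self, iter_congr T R L (Function.update y v a) y]
        intro w hw
        have : w ≠ v := fun h => hv (h ▸ hw)
        rw [Function.update_of_ne this]
      have key := sum_update S v (fun y => (size (iter T R (L ++ [v]) y x) : ℝ))
      simp only [hupd, hS] at key
      have h1 : ∑ y ∈ Fintype.piFinset S, ((Dn : ℝ) - η) * size (iter T R L y x) ≤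
          ∑ y ∈ Fintype.piFinset S, ∑ a ∈ S v, (size (T v a (iter T R L y x)) : ℝ) :=
        Finset.sum_le_sum fun y _ => hless v _ ((hsz L y).trans hx)
      rw [key, ← Finset.mul_sum] at h1
      have h2 : ∑ y ∈ Fintype.piFinset S, (size (iter T R L y x) : ℝ) ≤ (Dn : ℝ) ^ M * size x := by
        rw [← hcard, ← nsmul_eq_mul, ← Finset.sum_const]
        exact Finset.sum_le_sum fun y _ => by exact_mod_cast hsz L y
      set s1 := ∑ y ∈ Fintype.piFinset S, (size (iter T R L y x) : ℝ) with hs1
      set s2 := ∑ y ∈ Fintype.piFinset S, (size (iter T R (L ++ [v]) y x) : ℝ) with hs2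
      have h3 : s1 - η / Dn * s1 ≤ s2 := by
        have : (Dn - η) * s1 / Dn ≤ s2 := by
          rw [div_le_iff₀ hD]; linarith
        calc s1 - η / Dn * s1 = (Dn - η) * s1 / Dn := by field_simp
          _ ≤ s2 := this
      have h4 : η / Dn * s1 ≤ η / Dn * ((Dn : ℝ) ^ M * size x) :=
        mul_le_mul_of_nonneg_left h2 (by positivity)
      rw [hlen]
      calc (1 - (L.length + 1) * η / Dn) * (Dn : ℝ) ^ M * size x
          = (1 - L.length * η / Dn) * (Dn : ℝ) ^ M * size x - η / Dn * ((Dn : ℝ) ^ M * size x) := by
            ring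
        _ ≤ s1 - η / Dn * s1 := by linarith
        _ ≤ s2 := h3

end Abstract

/-! ### Push-forwards of mod-2 measures -/

section Push

variable {X Y Z : Type} [Fintype X] [Fintype Y] [DecidableEq Y] [DecidableEq Z]

theorem push_id [DecidableEq X] (μ : X → ZMod 2) : push (fun x => x) μ = μ := by
  funext y; simp [push, Finset.sum_filter]

theorem push_comp (g : Y → Z) (f : X → Y) (μ : X → ZMod 2) :
    push (fun x => g (f x)) μ = push g (push f μ) := by
  funext z
  simp only [push]
  rw [← Finset.sum_fiberwise_of_maps_to (s := univ.filter fun x => g (f x) = z)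
    (t := univ.filter fun y => g y = z) (g := f)]
  · refine Finset.sum_congr rfl fun y hy => ?_
    refine Finset.sum_congr ?_ fun _ _ => rfl
    ext x
    simp only [Finset.mem_filter, Finset.mem_univ, true_and] at hy ⊢
    constructor
    · exact fun h => h.2
    · intro h; exact ⟨by rw [h]; exact hy, h⟩
  · intro x hx
    simp only [Finset.mem_filter, Finset.mem_univ, true_and] at hx ⊢
    exact hx

theorem image_le (f : X → Y) (μ : X → ZMod 2) :
    2 * ((univ.filter fun x => μ x ≠ 0).image f).card ≤ sz (push f μ) + sz μ := by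
  classical
  set U := univ.filter fun x => μ x ≠ 0 with hU
  have h1 : U.card = ∑ r ∈ U.image f, (U.filter fun x => f x = r).card :=
    Finset.card_eq_sum_card_image f U
  have h2 : ∀ r ∈ U.image f, 2 ≤ (U.filter fun x => f x = r).card +
      (if push f μ r ≠ 0 then 1 else 0) := by
    intro r hr
    obtain ⟨x, hx, hxr⟩ := Finset.mem_image.1 hr
    have hx1 : x ∈ U.filter fun x => f x = r := by simp [hx, hxr]
    split_ifs with hp
    · have : 0 < (U.filter fun x => f x = r).card := Finset.card_pos.2 ⟨x, hx1⟩
      omega
    · rw [not_not] at hp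
      by_contra hlt
      have hone : (U.filter fun x => f x = r).card = 1 := by
        have : 0 < (U.filter fun x => f x = r).card := Finset.card_pos.2 ⟨x, hx1⟩
        omega
      obtain ⟨x0, hx0⟩ := Finset.card_eq_one.1 hone
      have hxx : x = x0 := by
        have := hx1; rw [hx0] at this; simpa using this
      have : push f μ r = μ x := by
        simp only [push]
        rw [Finset.sum_eq_single x]
        · intro b hb hbx
          by_contra hne
          have : b ∈ U.filter fun x => f x = r := by
            simp only [Finset.mem_filter, Finset.mem_univ, true_and] at hb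
            simp [hU, hne, hb]
          rw [hx0, Finset.mem_singleton] at this
          exact hbx (this.trans hxx.symm)
        · intro h
          exact absurd (by simp [hxr]) h
      rw [this] at hp
      have : μ x ≠ 0 := by simpa [hU] using hx
      exact this hp
  have h3 : ∑ r ∈ U.image f, (if push f μ r ≠ 0 then 1 else 0) ≤ sz (push f μ) := by
    rw [← Finset.card_filter]
    exact Finset.card_le_card fun r hr => by
      simp only [Finset.mem_filter, Finset.mem_univ, true_and] at hr ⊢
      exact hr.2
  have h4 : ∑ _r ∈ U.image f, 2 ≤ ∑ r ∈ U.image f, ((U.filter fun x => f x = r).card +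
      (if push f μ r ≠ 0 then 1 else 0)) := Finset.sum_le_sum h2
  rw [Finset.sum_const, Finset.sum_add_distrib, ← h1, smul_eq_mul] at h4
  have h5 : sz μ = U.card := rfl
  omega

theorem sz_push_le (f : X → Y) (μ : X → ZMod 2) : sz (push f μ) ≤ sz μ := by
  classical
  have : (univ.filter fun y => push f μ y ≠ 0) ⊆ (univ.filter fun x => μ x ≠ 0).image f := by
    intro y hy
    have hy' : ∑ x with f x = y, μ x ≠ 0 := (Finset.mem_filter.1 hy).2
    obtain ⟨x, hx, hx0⟩ := Finset.exists_ne_zero_of_sum_ne_zero hy'
    have hx := (Finset.mem_filter.1 hx).2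
    exact Finset.mem_image.2 ⟨x, by simp [hx0], hx⟩
  exact (Finset.card_le_card this).trans Finset.card_image_le

end Push

/-! ### Views as iterations -/

section View

variable {X : Type} [AddCommGroup X] [Module (ZMod 2) X] [Fintype X] [DecidableEq X]
  {M : ℕ} {Sd : Type} (N : NodeSys X M Sd)

/-- partial view along a list -/
def viewL (R : Finset (Fin M)) (L : List (Fin M)) (y : Fin M → Sd) : X →ₗ[ZMod 2] X :=
  L.foldl (fun f v => if v ∈ R then f else (N.op v (y v)).comp f) LinearMap.id

omit [Fintype X] [DecidableEq X] in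
theorem viewL_append (R : Finset (Fin M)) (L : List (Fin M)) (v : Fin M) (y : Fin M → Sd) :
    viewL N R (L ++ [v]) y = if v ∈ R then viewL N R L y else
      (N.op v (y v)).comp (viewL N R L y) := by
  simp [viewL, List.foldl_append]

theorem push_viewL (R : Finset (Fin M)) (L : List (Fin M)) (y : Fin M → Sd) (D : X → ZMod 2) :
    push (viewL N R L y) D = iter (fun v a => push (N.op v a)) R L y D := by
  induction L using List.reverseRecOn with
  | nil => exact push_id (X := X) D
  | append_singleton L v ih =>
    rw [viewL_append, iter_append]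
    split_ifs
    · exact ih
    · rw [← ih]; exact push_comp (N.op v (y v)) (viewL N R L y) D

omit [Fintype X] in
theorem image_viewL (R : Finset (Fin M)) (L : List (Fin M)) (y : Fin M → Sd)
    (U : Finset (X × X)) :
    U.image (Prod.map (viewL N R L y) (viewL N R L y)) =
      iter (fun v a (U : Finset (X × X)) => U.image (Prod.map (N.op v a) (N.op v a))) R L y U := by
  induction L using List.reverseRecOn with
  | nil =>
    show U.image (Prod.map (LinearMap.id : X →ₗ[ZMod 2] X) (LinearMap.id : X →ₗ[ZMod 2] X)) = U
    have : (Prod.map (LinearMap.id : X →ₗ[ZMod 2] X) (LinearMap.id : X →ₗ[ZMod 2] X)) =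
      (id : X × X → X × X) := by funext p; rfl
    rw [this, Finset.image_id]
  | append_singleton L v ih =>
    rw [viewL_append, iter_append]
    split_ifs
    · exact ih
    · rw [← ih, Finset.image_image]; rfl

end View

theorem spec_low : SpecLOW := by
  intro X _ _ _ _ M n m' dT Dn Sd _ _ N hN S hS hDn R D hD
  have h := low_abstract (M := M) (fun v a => push (N.op v a)) (fun μ : X → ZMod 2 => sz μ)
    (2 ^ m') Dn (2 * ((2 * m' + 1) * (n * m'))) (by positivity) hDn S hS
    (fun v a x => sz_push_le _ _) ?_ R (List.finRange M) (List.nodup_finRange M) D hD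
  · have e : ∀ y, (sz (push (N.view R y) D) : ℝ) =
      (sz (iter (fun v a => push (N.op v a)) R (List.finRange M) y D) : ℝ) := by
      intro y; rw [← push_viewL N R (List.finRange M) y D]; rfl
    simp only [e]
    rw [List.length_finRange] at h
    refine le_trans (le_of_eq ?_) h
    ring
  · intro v μ hμ
    have h1 := hN.lossless v (S v) (univ.filter fun x => μ x ≠ 0) hμ
    rw [hS] at h1
    have h2 : ∀ a ∈ S v, 2 * (((univ.filter fun x => μ x ≠ 0).image (N.op v a)).card : ℝ) ≤
        (sz (push (N.op v a) μ) : ℝ) + sz μ := by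
      intro a _
      exact_mod_cast image_le (N.op v a) μ
    have h3 := Finset.sum_le_sum h2
    rw [← Finset.mul_sum, Finset.sum_add_distrib, Finset.sum_const, hS, nsmul_eq_mul] at h3
    have h5 : ((univ.filter fun x => μ x ≠ 0).card : ℝ) = (sz μ : ℝ) := rfl
    rw [h5] at h1
    nlinarith [h1, h3]

theorem spec_low2 : SpecLOW2 := by
  intro X _ _ _ _ M n m' dT Dn Sd _ _ N hN S hS hDn R U hU
  have h := low_abstract (M := M)
    (fun v a (U : Finset (X × X)) => U.image (Prod.map (N.op v a) (N.op v a)))
    (fun U : Finset (X × X) => U.card)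
    (2 ^ m') Dn ((2 * m' + 1) * (n * m')) (by positivity) hDn S hS
    (fun v a x => Finset.card_image_le) ?_ R (List.finRange M) (List.nodup_finRange M) U hU
  · have e : ∀ y, ((U.image (Prod.map (N.view R y) (N.view R y))).card : ℝ) =
      ((iter (fun v a (U : Finset (X × X)) => U.image (Prod.map (N.op v a) (N.op v a))) R
        (List.finRange M) y U).card : ℝ) := by
      intro y; rw [← image_viewL N R (List.finRange M) y U]; rfl
    simp only [e]
    rw [List.length_finRange] at h
    exact h
  · intro v U' hU'
    have h1 := hN.lossless2 v (S v) U' hU'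
    rw [hS] at h1
    exact h1

end Vale.Agent.P318.H22
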